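import Mathlib

/-!
# Row 255 (helper32): slowly growing functions
-/

set_option autoImplicit false

noncomputable section

namespace Crest.Agent.N255.Lv

open Filter

/-- slowly growing functions adapted to a control function `c` -/
structure Slow (c : ℕ → ℕ) where
  lam : ℕ → ℕ
  j : ℕ → ℕ
  lam_mono : Monotone lam
  j_mono : Monotone j
  lam_zero : lam 0 = 0
  lam_c : ∀ n m, m ≤ n → lam (n + c m + 4 * n + 1) ≤ lam n + 1
  j_c : ∀ n m, m ≤ n → j (n + c m + 4 * n + 1) ≤ j n + 1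
  one_le_j : ∀ r, 1 ≤ j r
  j_le : ∀ r m, 0 < m → r ≤ 4 * m → j r ≤ lam m
  j_top : ∀ C, ∃ R, ∀ r ≥ R, C ≤ j r
  ratio : ∀ C k : ℕ, ∃ R, ∀ r ≥ R, ∀ m, r ≤ k * m → C * j r ≤ lam m

theorem exists_slow (c : ℕ → ℕ) : Nonempty (Slow c) := by
  let c' : ℕ → ℕ := fun n => (Finset.range (n + 1)).sup c + 4 * n + 1
  have hc : Monotone c' := fun n m h => by
    have := Finset.sup_mono (f := c) (Finset.range_mono (Nat.succ_le_succ h))
    simp only [c', Nat.succ_eq_add_one] at this ⊢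
    omega
  let a : ℕ → ℕ := fun k => Nat.rec 0 (fun _ b => b + c' b) k
  have ha : ∀ k, a (k + 1) = a k + c' (a k) := fun _ => rfl
  have hm : StrictMono a := strictMono_nat_of_lt_succ fun k => by rw [ha]; simp only [c']; omega
  have ex : ∀ n, ∃ k, n ≤ a k := fun n => ⟨n, hm.le_apply⟩
  obtain ⟨lam, le⟩ : ∃ lam : ℕ → ℕ, ∀ n k, lam n ≤ k ↔ n ≤ a k := ⟨fun n => sInf {k | n ≤ a k}, fun n k =>
    ⟨fun h => le_trans (Nat.sInf_mem (s := {k | n ≤ a k}) (ex n)) (hm.monotone h), fun h => Nat.sInf_le h⟩⟩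
  have lm : Monotone lam := fun n m h => (le _ _).2 (h.trans ((le _ _).1 le_rfl))
  have st : ∀ n m, m ≤ n → lam (n + c m + 4 * n + 1) ≤ lam n + 1 := fun n m h => by
    have h1 := (le n _).1 le_rfl
    have h2 := hc h1
    have h3 : c m ≤ (Finset.range (n + 1)).sup c := Finset.le_sup (Finset.mem_range.2 (by omega))
    rw [le, ha]
    simp only [c'] at h2 ⊢
    omega
  have pos : ∀ m, 0 < m → 1 ≤ lam m := fun m h => by
    by_contra b
    have : m ≤ 0 := (le m 0).1 (by omega)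
    omega
  have top : ∀ C, ∃ R, ∀ r ≥ R, C ≤ Nat.sqrt (lam r) := fun C => ⟨a (C * C) + 1, fun r h => by
    rw [Nat.le_sqrt]
    by_contra b
    have := (le r (C * C)).1 (by omega)
    omega⟩
  have mul : ∀ m k, lam (k * m) ≤ lam m + k := fun m k => by
    induction k with
    | zero => simpa using lm (Nat.zero_le m)
    | succ k ih =>
      rcases Nat.eq_zero_or_pos k with rfl | hk
      · simp
      · have := st (k * m) 0 (Nat.zero_le _)
        have := lm (show (k + 1) * m ≤ k * m + c 0 + 4 * (k * m) + 1 by nlinarith)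
        omega
  refine ⟨⟨lam, fun r => max 1 (Nat.sqrt (lam r)), lm, fun n m h => max_le_max le_rfl (Nat.sqrt_le_sqrt (lm h)),
    Nat.le_zero.1 ((le 0 0).2 (Nat.zero_le _)), st, fun n m h => ?_, fun r => le_max_left _ _,
    fun r m h k => ?_, fun C => (top C).imp fun R h r k => (h r k).trans (le_max_right _ _), fun C k => ?_⟩⟩
  · have := (Nat.sqrt_le_sqrt (st n m h)).trans (Nat.sqrt_succ_le_succ_sqrt _)
    omega
  · have h1 := pos m h
    have h2 := st m 0 (Nat.zero_le _)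
    have h3 := lm (show r ≤ m + c 0 + 4 * m + 1 by omega)
    have h4 := Nat.sqrt_le_sqrt (h3.trans h2)
    have h5 := Nat.sqrt_lt_self (show 1 < lam m + 1 by omega)
    omega
  · refine (top (C + k + 1)).imp fun R h r hr m hm => ?_
    have h1 := h r hr
    have h2 := Nat.sqrt_le (lam r)
    have h3 := (lm hm).trans (mul m k)
    rw [max_eq_right (by omega)]
    nlinarith

namespace Slow

variable {c : ℕ → ℕ} (s : Slow c)

theorem lam_step {n n' m : ℕ} (h : m ≤ n) (k : n' ≤ n + c m) : s.lam n' ≤ s.lam n + 1 :=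
  (s.lam_mono (by omega)).trans (s.lam_c n m h)

theorem j_step {n n' m : ℕ} (h : m ≤ n) (k : n' ≤ n + c m) : s.j n' ≤ s.j n + 1 :=
  (s.j_mono (by omega)).trans (s.j_c n m h)

theorem lam_five {n n' : ℕ} (k : n' ≤ 5 * n + 1) : s.lam n' ≤ s.lam n + 1 :=
  (s.lam_mono (by omega)).trans (s.lam_c n 0 (Nat.zero_le _))

theorem j_five {n n' : ℕ} (k : n' ≤ 5 * n + 1) : s.j n' ≤ s.j n + 1 :=
  (s.j_mono (by omega)).trans (s.j_c n 0 (Nat.zero_le _))

theorem lam_add (n d : ℕ) : s.lam (n + d) ≤ s.lam n + d := by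
  induction d with
  | zero => rfl
  | succ d ih => have := s.lam_five (n := n + d) (n' := n + (d + 1)) (by omega); omega

theorem j_add (n d : ℕ) : s.j (n + d) ≤ s.j n + d := by
  induction d with
  | zero => rfl
  | succ d ih => have := s.j_five (n := n + d) (n' := n + (d + 1)) (by omega); omega

theorem lam_le {n n' d : ℕ} (h : n' ≤ n + d) : s.lam n' ≤ s.lam n + d := (s.lam_mono h).trans (s.lam_add n d)

theorem j_le' {n n' d : ℕ} (h : n' ≤ n + d) : s.j n' ≤ s.j n + d := (s.j_mono h).trans (s.j_add n d)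

theorem lam_pos {n : ℕ} : 0 < s.lam n ↔ 0 < n :=
  ⟨fun h => Nat.pos_of_ne_zero fun a => by simp [a, s.lam_zero] at h,
    fun h => (s.one_le_j 0).trans (s.j_le 0 n h (Nat.zero_le _))⟩

theorem lam_top (C : ℕ) : ∃ R, ∀ r ≥ R, C ≤ s.lam r := by
  obtain ⟨R, h⟩ := s.j_top C
  exact ⟨R + 1, fun r k => (h r (by omega)).trans (s.j_le r r (by omega) (by omega))⟩

theorem j_pos (r : ℕ) : (0 : ℝ) < s.j r := by exact_mod_cast s.one_le_j r

/-- the slow quotient -/
def q (n r : ℕ) : ℝ := s.lam n / s.j r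

theorem q_nn (n r : ℕ) : 0 ≤ s.q n r := div_nonneg (Nat.cast_nonneg _) (Nat.cast_nonneg _)

@[simp] theorem q_zero (r : ℕ) : s.q 0 r = 0 := by simp [q, s.lam_zero]

theorem q_pos {n r : ℕ} : 0 < s.q n r ↔ 0 < n := by
  rw [q, div_pos_iff_of_pos_right (s.j_pos r), Nat.cast_pos, s.lam_pos]

theorem q_mono {n n' r r' : ℕ} (h : n ≤ n') (k : r' ≤ r) : s.q n r ≤ s.q n' r' :=
  div_le_div₀ (Nat.cast_nonneg _) (Nat.cast_le.2 (s.lam_mono h)) (s.j_pos _) (Nat.cast_le.2 (s.j_mono k))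

theorem one_le_q {n r : ℕ} (h : 0 < n) (k : r ≤ 4 * n) : 1 ≤ s.q n r :=
  (one_le_div (s.j_pos r)).2 (Nat.cast_le.2 (s.j_le r n h k))

theorem q_top (C : ℝ) (k : ℕ) : ∃ R, ∀ r ≥ R, ∀ n, r ≤ k * n → C ≤ s.q n r := by
  obtain ⟨R, h⟩ := s.ratio ⌈C⌉₊ k
  refine ⟨R, fun r a n b => (Nat.le_ceil C).trans ((le_div_iff₀ (s.j_pos r)).2 ?_)⟩
  exact_mod_cast h r a n b

/-- one sided estimate: `lam` and `j` move by at most `d` -/
theorem q_le {n n' r r' d : ℕ} {C : ℝ} (h : s.lam n' ≤ s.lam n + d) (k : s.j r ≤ s.j r' + d) (hC : s.q n r ≤ C) :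
    s.q n' r' ≤ s.q n r + (C + 1) * d / s.j r' := by
  have p := s.j_pos r
  have p' := s.j_pos r'
  have h' : (s.lam n' : ℝ) ≤ s.lam n + d := by exact_mod_cast h
  have k' : (s.j r : ℝ) ≤ s.j r' + d := by exact_mod_cast k
  have e : (s.lam n : ℝ) = s.q n r * s.j r := by rw [q, div_mul_cancel₀ _ p.ne']
  have d0 : (0 : ℝ) ≤ d := Nat.cast_nonneg _
  rw [q.eq_1 s n' r', div_le_iff₀ p', add_mul, div_mul_cancel₀ _ p'.ne']
  nlinarith [s.q_nn n r, mul_le_mul_of_nonneg_left k' (s.q_nn n r), mul_le_mul_of_nonneg_right hC d0]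

/-- **slow variation** -/
theorem q_slow (C : ℝ) {ε : ℝ} (hε : 0 < ε) (d : ℕ) : ∃ R, ∀ r' ≥ R, ∀ n n' r, s.lam n' ≤ s.lam n + d →
    s.j r ≤ s.j r' + d → s.q n r ≤ C → s.q n' r' ≤ s.q n r + ε := by
  obtain ⟨R, h⟩ := s.j_top ⌈(C + 1) * d / ε⌉₊
  refine ⟨R, fun r' a n n' r b c e => (s.q_le b c e).trans (add_le_add le_rfl ?_)⟩
  have := (Nat.le_ceil _).trans (Nat.cast_le.2 (h r' a))
  rw [div_le_iff₀ hε] at this
  rw [div_le_iff₀ (s.j_pos r')]
  linarith

theorem min_q_slow (C : ℝ) {ε : ℝ} (hε : 0 < ε) (d : ℕ) : ∃ R, ∀ r ≥ R, ∀ r' ≥ R, ∀ n n',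
    s.lam n' ≤ s.lam n + d → s.lam n ≤ s.lam n' + d → s.j r' ≤ s.j r + d → s.j r ≤ s.j r' + d →
    |min C (s.q n r) - min C (s.q n' r')| ≤ ε := by
  obtain ⟨R, h⟩ := s.q_slow C hε d
  have key : ∀ r' ≥ R, ∀ n n' r, s.lam n' ≤ s.lam n + d → s.j r ≤ s.j r' + d →
      min C (s.q n' r') ≤ min C (s.q n r) + ε := fun r' a n n' r b c => by
    rcases le_total C (s.q n r) with e | e
    · rw [min_eq_left e]; linarith [min_le_left C (s.q n' r')]
    · rw [min_eq_right e]; exact (min_le_right _ _).trans (h r' a n n' r b c e)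
  refine ⟨R, fun r a r' a' n n' b b' c c' => abs_le.2 ⟨?_, ?_⟩⟩
  · linarith [key r' a' n n' r b c']
  · linarith [key r a n' n r' b' c]

end Slow

end Crest.Agent.N255.Lv
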