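import Crest.Agent.N255.Lv.Abs
import Crest.Agent.N255.Lv.Slow
import Crest.Agent.N255.Pt.Mir
import Crest.Agent.N255.Fa.Hyp

/-!
# Row 255 (helper32): the slow level functions on the vertices of the cube complex
-/

set_option autoImplicit false

noncomputable section

namespace Crest.Agent.N255.Lv

open FreeGroup Pt Fa Ra
open scoped Classical

section gen

variable {S K F Nd Ed : Type} [DecidableEq S] [Group F] [MulAction F Nd] [MulAction F Ed]
  (M : Ce.Mir S K F Nd Ed) {c : ℕ → ℕ} (s : Slow c)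

/-- the action of `F` on the vertices -/
def ac (f : F) (x : Vt M) : Vt M := (SemidirectProduct.inr f : M.G0) • x

/-- the slow distance to a quadrant -/
def mu (Z : Set S) (x : Vt M) : ℝ := s.q (ds M Z x) (rad M x)

/-- the slow depth behind a wall -/
def nu (a : S) (x : Vt M) : ℝ := s.q (n M a x) (rad M x)

variable {M} {x y : Vt M} {Z Z' : Set S} {a : S}

theorem nu_eq (a : S) : nu M s a = mu M s {a} := rfl
theorem ac_snd (f : F) (x : Vt M) : (ac M f x).2 = f • x.2 := by rw [ac, inr_smul]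
theorem ac_one (x : Vt M) : ac M 1 x = x := by rw [ac, _root_.map_one, one_smul]
theorem ac_mul (f g : F) (x : Vt M) : ac M (f * g) x = ac M f (ac M g x) := by rw [ac, _root_.map_mul, mul_smul]; rfl
theorem ac_inv (f : F) (x : Vt M) : ac M f⁻¹ (ac M f x) = x := by rw [← ac_mul, inv_mul_cancel, ac_one]
theorem ac_inv' (f : F) (x : Vt M) : ac M f (ac M f⁻¹ x) = x := by rw [← ac_mul, mul_inv_cancel, ac_one]
theorem dl_ac (f : F) (x y : Vt M) : dl M (ac M f x) (ac M f y) = dl M x y := dl_smul _ _ _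
theorem rad_ac (f : F) (x : Vt M) : rad M (ac M f x) = rad M x := rad_inr f x
theorem ds_ac (f : F) (Z : Set S) (x : Vt M) : ds M (M.ρ f '' Z) (ac M f x) = ds M Z x := ds_inr f Z x
theorem n_ac (f : F) (a : S) (x : Vt M) : n M (M.ρ f a) (ac M f x) = n M a x := n_inr f a x
theorem mu_ac (f : F) (Z : Set S) (x : Vt M) : mu M s (M.ρ f '' Z) (ac M f x) = mu M s Z x := by
  rw [mu, ds_ac, rad_ac, mu]
theorem nu_ac (f : F) (a : S) (x : Vt M) : nu M s (M.ρ f a) (ac M f x) = nu M s a x := by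
  rw [nu, n_ac, rad_ac, nu]
theorem mu_nn (Z : Set S) (x : Vt M) : 0 ≤ mu M s Z x := s.q_nn _ _
theorem nu_nn (a : S) (x : Vt M) : 0 ≤ nu M s a x := s.q_nn _ _
theorem mu_mono (h : Z ⊆ Z') (x : Vt M) : mu M s Z x ≤ mu M s Z' x := s.q_mono (ds_mono h x) le_rfl
theorem nu_le_mu (h : a ∈ Z) (x : Vt M) : nu M s a x ≤ mu M s Z x := s.q_mono (n_le_ds h x) le_rfl
theorem nu_pos : 0 < nu M s a x ↔ a ∈ Init x.1 := s.q_pos.trans n_pos
theorem mu_pos : 0 < mu M s Z x ↔ ∃ a ∈ Z, a ∈ Init x.1 := by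
  rw [mu, s.q_pos, Nat.pos_iff_ne_zero, Ne, ds_eq_zero]; simp [KV]

variable (M) in
/-- **slow variation** of `mu` and `nu` -/
theorem mu_slow (C : ℝ) {ε : ℝ} (hε : 0 < ε) (d : ℕ) : ∃ R, ∀ x y : Vt M, R ≤ rad M x → dl M x y ≤ d → ∀ Z,
    (mu M s Z x ≤ C → mu M s Z y ≤ mu M s Z x + ε) ∧ (mu M s Z y ≤ C → mu M s Z x ≤ mu M s Z y + ε) := by
  obtain ⟨R, h⟩ := s.q_slow C hε d
  refine ⟨R + d, fun x y a b Z => ?_⟩
  have h1 := rad_lip x y
  have h2 := rad_lip y x
  have h3 := ds_lip Z x y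
  have h4 := ds_lip Z y x
  rw [dl_comm'] at h2 h4
  exact ⟨h _ (by omega) _ _ _ (s.lam_le (by omega)) (s.j_le' (by omega)),
    h _ (by omega) _ _ _ (s.lam_le (by omega)) (s.j_le' (by omega))⟩

variable (M) in
theorem min_mu_slow (C : ℝ) {ε : ℝ} (hε : 0 < ε) (d : ℕ) : ∃ R, ∀ x y : Vt M, R ≤ rad M x → dl M x y ≤ d → ∀ Z,
    |min C (mu M s Z x) - min C (mu M s Z y)| ≤ ε := by
  obtain ⟨R, h⟩ := s.min_q_slow C hε d
  refine ⟨R + d, fun x y a b Z => ?_⟩
  have h1 := rad_lip x y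
  have h2 := rad_lip y x
  have h3 := ds_lip Z x y
  have h4 := ds_lip Z y x
  rw [dl_comm'] at h2 h4
  exact h _ (by omega) _ (by omega) _ _ (s.lam_le (by omega)) (s.lam_le (by omega)) (s.j_le' (by omega))
    (s.j_le' (by omega))

variable (M) in
/-- `mu Z` is almost the maximum of the `nu a` -/
theorem mu_le_nu {ε : ℝ} (hε : 0 < ε) : ∃ R, ∀ x : Vt M, R ≤ rad M x → ∀ Z, 0 < mu M s Z x →
    ∃ a ∈ Z, a ∈ Init x.1 ∧ mu M s Z x ≤ nu M s a x + ε := by
  obtain ⟨R, h⟩ := s.j_top ⌈1 / ε⌉₊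
  refine ⟨R, fun x a Z b => ?_⟩
  obtain ⟨t, h1, h2, h3, -⟩ := exists_max (s.q_pos.1 b)
  refine ⟨t, h1, n_pos.1 h3, ?_⟩
  have k1 : (s.lam (ds M Z x) : ℝ) ≤ s.lam (n M t x) + 1 := by exact_mod_cast s.lam_five (by omega)
  have k2 := (Nat.le_ceil _).trans (Nat.cast_le.2 (h _ a))
  rw [div_le_iff₀ hε] at k2
  rw [mu, nu, Slow.q, Slow.q, div_le_iff₀ (s.j_pos _), add_mul, div_mul_cancel₀ _ (s.j_pos _).ne']
  linarith

variable (M) in
/-- the bounded neighbourhoods of the core are cocompact -/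
theorem cocpt (R : ℕ) : ∃ B : Set (Vt M), B.Finite ∧ ∀ x, rad M x ≤ R → ∃ f, ac M f x ∈ B := by
  obtain ⟨A, hA, h⟩ := M.finN
  refine ⟨⋃ t ∈ A, {y | dl M (1, t) y ≤ R}, hA.biUnion fun t _ => ball_fin _ _, fun x hx => ?_⟩
  obtain ⟨z, h1, h2⟩ := ds_le_iff.1 hx
  obtain ⟨f, hf⟩ := h z.2
  refine ⟨f, Set.mem_biUnion hf ?_⟩
  have : ac M f z = (1, f • z.2) := by rw [ac, inr_smul, mem_core.1 h1, _root_.map_one]
  show dl M _ _ ≤ R
  rw [← this, dl_ac]
  exact h2

end gen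

variable {ι I Tor K : Type}

/-- the node of a vertex of the cover -/
def nd (a : St ι I Tor) : Nd ι := ⟨a.v, a.k.elim (fun _ => none) fun t => some t.1⟩

theorem nd_smul (g : FreeGroup ι) (a : St ι I Tor) : nd (g • a) = g • nd a := rfl
theorem nd_inl (v : FreeGroup ι) (a : I) : nd (cp v (.inl a : V ι I Tor)) = ⟨v, none⟩ := rfl
theorem nd_inr (v : FreeGroup ι) (j : ι × Bool) (t : Tor) : nd (cp v (.inr (j, t) : V ι I Tor)) = tgt ⟨v, j⟩ := rfl

theorem en_cp (v : FreeGroup ι) (a : V ι I Tor) : En (nd (cp v a)) v := by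
  rcases a with a | ⟨j, t⟩
  · exact en_v _
  · exact (en_tgt (e := ⟨v, j⟩)).2 (.inl rfl)

theorem mem_supE {e : Ed ι} {a : St ι I Tor} : a ∈ supE e ↔ nd a = tgt e := by
  refine ⟨by rintro ⟨t, rfl⟩; rfl, fun h => ?_⟩
  obtain ⟨v, a | ⟨i, t⟩⟩ := a
  · simpa [nd, tgt] using congrArg L.k h
  · obtain rfl : v = og e.v e.k := congrArg L.v h
    obtain rfl : i = e.k.1 := by simpa [nd, tgt] using congrArg L.k h
    exact ⟨t, rfl⟩

theorem supE_rev (e : Ed ι) : (supE (rev e) : Set (St ι I Tor)) = supE e := by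
  ext; rw [mem_supE, mem_supE, tgt_rev]

variable [DecidableEq ι]

/-- the vertices strictly on the head side -/
def A (e : Ed ι) : Set (St ι I Tor) := {a | Hd e (nd a)}

variable {e e' : Ed ι} {a b : St ι I Tor}

theorem mem_A : a ∈ A e ↔ Hd e (nd a) := Iff.rfl

theorem A_trich (e : Ed ι) (a : St ι I Tor) : a ∈ A e ∨ a ∈ A (rev e) ∨ a ∈ supE e := by
  rw [mem_supE]; exact trich e _

theorem A_not_rev (h : a ∈ A e) : a ∉ A (rev e) := Hd.not_rev h

theorem A_not_supE (h : a ∈ A e) : a ∉ supE e := fun k => not_Hd_tgt e (mem_supE.1 k ▸ h)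

theorem Bey.A (h : Bey e e') (k : a ∉ A (rev e')) : a ∈ A e := h _ k

theorem smul_mem_A (g : FreeGroup ι) : g • a ∈ A (g • e) ↔ a ∈ A e := Hd_smul (t := nd a) g

theorem cp_mem_A {v : FreeGroup ι} {a : V ι I Tor} (h : cp v a ∈ A e) : hs e v := h _ (en_cp v a)

theorem cp_nmem_A {v : FreeGroup ι} (h : hs e v) (a : V ι I Tor) : cp v a ∉ A (rev e) := not_Hd_rev (en_cp v a) h

variable (D : Dt ι I Tor K)

/-- the wall separates -/
theorem A_sep (h : D.Gt.Adj a b) (k : a ∈ A e) : b ∉ A (rev e) := by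
  obtain ⟨v, a, b, -, rfl, rfl⟩ := h
  exact cp_nmem_A (cp_mem_A k) b

variable [Fintype ι] [Fintype I] [Fintype Tor] [DecidableEq I] [DecidableEq Tor]

theorem image_A (g : FreeGroup ι) (e : Ed ι) : D.mir.ρ g '' A e = A (g • e) := by
  ext a
  obtain ⟨a, rfl⟩ := MulAction.surjective g a
  rw [smul_mem_A]
  exact (D.mir.ρ g).injective.mem_set_image

theorem ds_A_zero {x : Vt D.mir} (h : a ∈ Init x.1) (k : a ∈ A e) : ds D.mir (A (rev e)) x = 0 :=
  ds_eq_zero.2 fun b hb hb' => by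
    by_cases c : a = b
    · exact A_not_rev k (c ▸ hb)
    · exact A_sep D (Init_clique x.1 h hb' c) k hb

variable [Nonempty I]

/-- a deepest wall -/
def lb0 (x : Vt D.mir) : St ι I Tor :=
  if h : 0 < rad D.mir x then (exists_max h).choose else ⟨1, .inl (Classical.arbitrary I)⟩

/-- **the label**: an equivariant choice of a deepest wall -/
def lb (x : Vt D.mir) : St ι I Tor := x.2.v • lb0 D (ac D.mir x.2.v⁻¹ x)

variable {x y : Vt D.mir}

theorem lb_ac (f : FreeGroup ι) (x : Vt D.mir) : lb D (ac D.mir f x) = f • lb D x := by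
  rw [lb, ac_snd, smul_v, mul_inv_rev, ac_mul, ac_inv, mul_smul, lb]

theorem lb_spec (h : 0 < rad D.mir x) : rad D.mir x ≤ 4 * n D.mir (lb D x) x ∧ 0 < n D.mir (lb D x) x ∧
    ∀ b, n D.mir b x ≤ n D.mir (lb D x) x := by
  have k : 0 < rad D.mir (ac D.mir x.2.v⁻¹ x) := by rwa [rad_ac]
  obtain ⟨-, h1, h2, h3⟩ := (exists_max k).choose_spec
  have e : n D.mir (lb D x) x = n D.mir (exists_max k).choose (ac D.mir x.2.v⁻¹ x) := by
    have := n_ac x.2.v (exists_max k).choose (ac D.mir x.2.v⁻¹ x)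
    rw [ac_inv'] at this
    rw [lb, lb0, dif_pos k]
    exact this
  rw [e]
  exact ⟨(rad_ac _ _).symm.trans_le h1, h2, fun b => (n_ac x.2.v⁻¹ b x).symm.trans_le (h3 _ trivial)⟩

theorem lb_init (h : 0 < rad D.mir x) : lb D x ∈ Init x.1 := n_pos.1 (lb_spec D h).2.1

theorem lb_init' {d : ℕ} (h : dl D.mir x y ≤ d) (k : 4 * d < rad D.mir x) : lb D x ∈ Init y.1 := by
  have := (lb_spec D (x := x) (by omega)).1
  have := n_lip (lb D x) y x
  rw [dl_comm'] at this
  exact n_pos.1 (by omega)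

/-- far out, labels of nearby vertices are adjacent or equal -/
theorem lb_adj {d : ℕ} (h : dl D.mir x y ≤ d) (k : 5 * d < rad D.mir x) (e : lb D x ≠ lb D y) :
    D.Gt.Adj (lb D x) (lb D y) := by
  have := rad_lip y x
  rw [dl_comm'] at this
  exact Init_clique y.1 (lb_init' D h (by omega)) (lb_init D (by omega)) e

/-- the position in the tree -/
def pos (x : Vt D.mir) : Nd ι := if rad D.mir x = 0 then x.2 else nd (lb D x)

theorem pos_far (h : 0 < rad D.mir x) : pos D x = nd (lb D x) := if_neg h.ne'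

theorem pos_ac (f : FreeGroup ι) (x : Vt D.mir) : pos D (ac D.mir f x) = f • pos D x := by
  unfold pos
  rw [rad_ac, lb_ac, ac_snd]
  split_ifs <;> rfl

variable {c : ℕ → ℕ} (s : Slow c)

theorem nu_lb (C : ℝ) : ∃ R, ∀ x, R ≤ rad D.mir x → C ≤ nu D.mir s (lb D x) x := by
  obtain ⟨R, h⟩ := s.q_top C 4
  exact ⟨R + 1, fun x a => h _ (by omega) _ (lb_spec D (by omega)).1⟩

theorem nu_le_lb (h : 0 < rad D.mir x) (b : St ι I Tor) : nu D.mir s b x ≤ nu D.mir s (lb D x) x :=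
  s.q_mono ((lb_spec D h).2.2 b) le_rfl

/-- the asymmetric cut function -/
def hq (e : Ed ι) (x : Vt D.mir) : ℝ :=
  if rad D.mir x = 0 then (if Hd e x.2 then 1 else 0) else min 1 (mu D.mir s (A e) x)

omit [Nonempty I] in
theorem hq_mem (e : Ed ι) (x : Vt D.mir) : 0 ≤ hq D s e x ∧ hq D s e x ≤ 1 := by
  unfold hq
  split_ifs
  exacts [⟨zero_le_one, le_rfl⟩, ⟨le_rfl, zero_le_one⟩, ⟨le_min zero_le_one (mu_nn s _ _), min_le_left _ _⟩]

theorem hq_one (h : Hd e (pos D x)) : hq D s e x = 1 := by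
  unfold pos at h
  unfold hq
  split_ifs at h with a
  · rw [if_pos a, if_pos h]
  · have := lb_spec D (Nat.pos_of_ne_zero a)
    have := n_le_ds (Z := A e) h x
    rw [if_neg a]
    exact min_eq_left (s.one_le_q (by omega) (by omega))

theorem hq_zero (h : Hd (rev e) (pos D x)) : hq D s e x = 0 := by
  unfold pos at h
  unfold hq
  split_ifs at h with a
  · rw [if_pos a, if_neg fun b : Hd e x.2 => b.not_rev h]
  · have := ds_A_zero D (lb_init D (Nat.pos_of_ne_zero a)) h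
    rw [rev_rev] at this
    rw [if_neg a, mu, this, s.q_zero, min_eq_right zero_le_one]

omit [Nonempty I] in
theorem hq_ac (f : FreeGroup ι) (e : Ed ι) (x : Vt D.mir) : hq D s (f • e) (ac D.mir f x) = hq D s e x := by
  unfold hq
  rw [rad_ac, ac_snd, Hd_smul, ← image_A, mu_ac]

/-- **the cut functions** -/
def cut : Cut ι (Vt D.mir) where
  pos := pos D
  h e x := if e.k.2 then hq D s e x else 1 - hq D s (rev e) x
  nn e x := by
    split_ifs
    exacts [(hq_mem D s _ _).1, sub_nonneg.2 (hq_mem D s _ _).2]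
  h_rev e x := by cases h : e.k.2 <;> simp [op, h]
  one e x h := by
    split_ifs
    · exact hq_one D s h
    · rw [hq_zero D s (by rwa [rev_rev]), sub_zero]

theorem cut_pos : (cut D s).pos = pos D := rfl

theorem h_true (h : e.k.2 = true) (k : 0 < rad D.mir x) : (cut D s).h e x = min 1 (mu D.mir s (A e) x) :=
  (if_pos h).trans (if_neg k.ne')

theorem h_false (h : e.k.2 = false) (k : 0 < rad D.mir x) :
    (cut D s).h e x = 1 - min 1 (mu D.mir s (A (rev e)) x) :=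
  (if_neg (by simp [h])).trans (congrArg _ (if_neg k.ne'))

theorem h_ac (f : FreeGroup ι) (e : Ed ι) (x : Vt D.mir) : (cut D s).h (f • e) (ac D.mir f x) = (cut D s).h e x := by
  simp only [cut, smul_k, rev_smul, hq_ac]

theorem H_ac (f : FreeGroup ι) (e : Ed ι) (x : Vt D.mir) : (cut D s).H (f • e) (ac D.mir f x) = (cut D s).H e x :=
  (cut D s).H_smul f (fun e => h_ac D s f e x) e

theorem h_slow {ε : ℝ} (hε : 0 < ε) (d : ℕ) : ∃ R, ∀ x y, R ≤ rad D.mir x → dl D.mir x y ≤ d → ∀ e,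
    |(cut D s).h e x - (cut D s).h e y| ≤ ε := by
  obtain ⟨R, h⟩ := min_mu_slow D.mir s 1 hε d
  refine ⟨R + d + 1, fun x y a b e => ?_⟩
  have := rad_lip y x
  rw [dl_comm'] at this
  cases k : e.k.2
  · rw [h_false D s k (by omega), h_false D s k (by omega), sub_sub_sub_cancel_left, abs_sub_comm]
    exact h x y (by omega) b _
  · rw [h_true D s k (by omega), h_true D s k (by omega)]
    exact h x y (by omega) b _

/-- **slow variation of the levels** -/
theorem H_slow {ε : ℝ} (hε : 0 < ε) (d : ℕ) : ∃ R, ∀ x y, R ≤ rad D.mir x → dl D.mir x y ≤ d → ∀ e,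
    |(cut D s).H e x - (cut D s).H e y| ≤ ε := by
  obtain ⟨R, h⟩ := h_slow D s (ε := min (ε / 9) (1 / 2)) (by positivity) d
  refine ⟨R, fun x y a b e => ((cut D s).H_slow ((min_le_right _ _).trans_lt (by norm_num)) (h x y a b) e).trans ?_⟩
  linarith [min_le_left (ε / 9) (1 / 2)]

/-- the levels are uniformly coarsely Lipschitz -/
theorem H_lip (d : ℕ) : ∃ C : ℕ, ∀ x y, dl D.mir x y ≤ d → ∀ e, |(cut D s).H e x - (cut D s).H e y| ≤ C := by
  obtain ⟨R, h⟩ := H_slow D s one_pos d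
  obtain ⟨B, hB, k⟩ := cocpt D.mir R
  obtain ⟨N, hN⟩ := ((hB.biUnion fun b _ => (ball_fin b d).image fun y =>
    {e | (cut D s).h e b ≠ (cut D s).h e y}.ncard)).bddAbove
  refine ⟨1 + 2 * N, fun x y a e => ?_⟩
  push_cast
  rcases le_total R (rad D.mir x) with b | b
  · exact (h x y b a e).trans (le_add_of_nonneg_right (by positivity))
  · obtain ⟨f, hf⟩ := k x b
    rw [← H_ac D s f e x, ← H_ac D s f e y]
    refine ((cut D s).H_sub (fun e => (cut D s).h_sub e _ _) _).trans ?_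
    have : ({e | (cut D s).h e (ac D.mir f x) ≠ (cut D s).h e (ac D.mir f y)}.ncard : ℝ) ≤ N :=
      Nat.cast_le.2 (hN (Set.mem_biUnion hf ⟨ac D.mir f y, (dl_ac f x y).trans_le a, rfl⟩))
    linarith

theorem one_le_H (h : 0 < rad D.mir x) (k : lb D x ∈ A e) : 1 ≤ (cut D s).H e x :=
  (cut D s).one_le_H (by rwa [cut_pos, pos_far D h])

theorem H_np (h : 0 < rad D.mir x) (k : lb D x ∈ A (rev e)) : (cut D s).H e x ≤ 0 :=
  (cut D s).H_np (by rwa [cut_pos, pos_far D h])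

theorem pos_finite (R N : ℕ) (r : FreeGroup ι) : {x | rad D.mir x ≤ R ∧ d r (pos D x).v ≤ N}.Finite := by
  obtain ⟨B, hB, k⟩ := cocpt D.mir R
  refine (hB.biUnion fun b _ => (ball_finite r N).image fun u => ac D.mir (u * (pos D b).v⁻¹) b).subset
    fun x hx => ?_
  obtain ⟨f, hf⟩ := k x hx.1
  refine Set.mem_biUnion hf ⟨_, hx.2, ?_⟩
  simp only [pos_ac, smul_v, mul_inv_rev, mul_inv_cancel_left, ac_inv]

/-- **(L4) on vertices** -/
theorem out_fin (R N C : ℕ) (r : FreeGroup ι) :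
    {x | rad D.mir x ≤ R ∧ ∀ e, Out r N e → (cut D s).H e x ≤ C}.Finite :=
  (pos_finite D R _ r).subset fun _ h => ⟨h.1, (cut D s).d_le h.2⟩

theorem win_fin (R C : ℕ) (e : Ed ι) : {x | rad D.mir x ≤ R ∧ |(cut D s).H e x| ≤ C}.Finite :=
  (pos_finite D R _ e.v).subset fun _ h => ⟨h.1, (cut D s).d_le' (abs_le.1 h.2).2 (abs_le.1 h.2).1⟩

end Crest.Agent.N255.Lv
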