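import Crest.Agent.N255.Lv.Top
import Crest.Agent.N255.Lv.Tm

/-!
# Row 255 (helper86, after helper32's `Lv/Top`): the level functions on the manifold, abstract model
-/

set_option autoImplicit false
set_option linter.unusedSectionVars false

noncomputable section

namespace Crest.Agent.N255.Lv

open FreeGroup Pt Fa Ra Uc Set

namespace TM

variable {ι S K : Type} [DecidableEq ι] [DecidableEq S] [MulAction (FreeGroup ι) S] [Nonempty S] [Finite ι]
  [LinearOrder K] {M : Ce.Mir S K (FreeGroup ι) (Nd ι) (Ed ι)} {w : En.Wl ι S} (Z : TM M w)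
  {G : Subgroup M.G} {F' : Subgroup (FreeGroup ι)} {T : Type}
  [TopologicalSpace T] [MulAction G T] [MulAction F' T]
  (E : Av G F' T) {c : ℕ → ℕ} (s : Slow c) {e e' : Ed ι} {x y : T} {K' : Set T}

/-- **the end label** -/
def lab (x : T) : S := lb Z (E.v x)

/-- the averaged cut function -/
def hT (e : Ed ι) : C(T, ℝ) := E.av ((cut Z s).h e)

/-- **the level function** -/
def sT (e : Ed ι) : C(T, ℝ) := E.av ((cut Z s).H e)

theorem lab_smul (f : F') (x : T) : Z.lab E (f • x) = f.1 • Z.lab E x := by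
  rw [lab, Av.v_smul, lb_ac, lab]

theorem sT_smul (f : F') (e : Ed ι) (x : T) : Z.sT E s (f.1 • e) (f • x) = Z.sT E s e x :=
  E.av_smul (H_ac Z s f.1 e) x

theorem hT_smul (f : F') (e : Ed ι) (x : T) : Z.hT E s (f.1 • e) (f • x) = Z.hT E s e x :=
  E.av_smul (h_ac Z s f.1 e) x

theorem sT_rev (e : Ed ι) (x : T) : Z.sT E s (rev e) x = 1 - Z.sT E s e x := by
  simp only [sT, Av.av, Cut.H_rev]; exact E.P.av_one_sub _ x

theorem hT_rev (e : Ed ι) (x : T) : Z.hT E s (rev e) x = 1 - Z.hT E s e x := by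
  simp only [hT, Av.av, Cut.h_rev]; exact E.P.av_one_sub _ x

theorem sT_bey (h : Bey e e') (x : T) : Z.sT E s e' x + 1 ≤ Z.sT E s e x :=
  E.P.av_nest (fun _ => (cut Z s).H_bey h _) x

theorem hT_nn (e : Ed ι) (x : T) : 0 ≤ Z.hT E s e x := E.le_av fun v _ => (cut Z s).nn e v

theorem hT_le (e : Ed ι) (x : T) : Z.hT E s e x ≤ 1 := E.av_le fun v _ => (cut Z s).le_one e v

omit [LinearOrder K] in
theorem sv_H : SV (cut Z s).H := fun _ hε d => H_slow Z s hε d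

omit [LinearOrder K] in
theorem sv_h : SV (cut Z s).h := fun _ hε d => h_slow Z s hε d

/-- far out `hT` is almost the clamped level -/
theorem clamp {ε : ℝ} (hε : 0 < ε) : ∃ R : ℝ, ∀ x, R < E.rr x → ∀ e,
    |max 0 (min 1 (Z.sT E s e x)) - Z.hT E s e x| ≤ ε := by
  obtain ⟨R1, h1⟩ := E.sv0 (Z.sv_H s) (half_pos hε)
  obtain ⟨R2, h2⟩ := E.sv0 (Z.sv_h s) (half_pos hε)
  refine ⟨max R1 R2, fun x a e => ?_⟩
  have k1 := h1 x ((le_max_left _ _).trans_lt a) _ (E.v_mem x) e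
  have k2 := h2 x ((le_max_right _ _).trans_lt a) _ (E.v_mem x) e
  rw [← (cut Z s).clamp, abs_sub_comm] at k2
  have k3 : |max 0 (min 1 (Z.sT E s e x)) - max 0 (min 1 ((cut Z s).H e (E.v x)))| ≤ ε / 2 := by
    refine (abs_max_sub_max_le_max _ _ _ _).trans (max_le (by simpa using (half_pos hε).le) ?_)
    exact (abs_min_sub_min_le_max _ _ _ _).trans (max_le (by simpa using (half_pos hε).le) k1)
  exact (abs_sub_le _ _ _).trans ((add_le_add k3 k2).trans_eq (add_halves ε))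

/-- **(L0)** labels of nearby far points are adjacent or equal -/
theorem lab_adj (hK : IsCompact K') : ∃ R : ℝ, ∀ x y, R < E.rr x → Nr G K' x y → Z.lab E x ≠ Z.lab E y →
    M.Γ.Adj (Z.lab E x) (Z.lab E y) := by
  obtain ⟨d, h1⟩ := E.near hK
  obtain ⟨R, h2⟩ := E.far hK (5 * d + 1)
  exact ⟨R, fun x y a b => lb_adj Z (h1 x y b _ (E.v_mem x) _ (E.v_mem y)) (h2 x x a b.left _ (E.v_mem x))⟩

theorem lab_init (hK : IsCompact K') : ∃ R : ℝ, ∀ x y, R < E.rr x → Nr G K' x y → ∀ u ∈ E.Vs y,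
    Z.lab E x ∈ Init u.1 := by
  obtain ⟨d, h1⟩ := E.near hK
  obtain ⟨R, h2⟩ := E.far hK (4 * d + 1)
  exact ⟨R, fun x y a b w c => lb_init' Z (h1 x y b _ (E.v_mem x) _ c) (h2 x x a b.left _ (E.v_mem x))⟩

/-- **(L0)** labels and sides -/
theorem lab_side (hK : IsCompact K') {ε : ℝ} (hε : 0 < ε) : ∃ R : ℝ, ∀ x y, R < E.rr x → Nr G K' x y → ∀ e,
    Z.sT E s e x < 1 - ε → Z.lab E y ∉ w.B e := by
  obtain ⟨R1, h1⟩ := E.sv (Z.sv_H s) hK hε
  obtain ⟨R2, h2⟩ := E.far hK 1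
  refine ⟨max R1 R2, fun x y a b e k n => ?_⟩
  have k1 := (abs_le.1 (h1 x y ((le_max_left _ _).trans_lt a) b _ (E.v_mem y) e)).1
  have k2 := one_le_H Z s (h2 x y ((le_max_right _ _).trans_lt a) b _ (E.v_mem y)) n
  rw [sT] at k
  linarith

theorem lab_side0 {ε : ℝ} (hε : 0 < ε) : ∃ R : ℝ, ∀ x, R < E.rr x → ∀ e,
    (Z.sT E s e x < 1 - ε → Z.lab E x ∉ w.B e) ∧ (ε < Z.sT E s e x → Z.lab E x ∉ w.B (rev e)) :=
  (Z.lab_side E s E.P.cpt hε).imp fun _ h x a e => ⟨h x x a (E.nr_self x) e, fun k =>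
    h x x a (E.nr_self x) _ (by rw [sT_rev]; linarith)⟩

theorem lab_T : ∃ R : ℝ, ∀ x, R < E.rr x → ∀ e, Z.lab E x ∈ w.T e → |Z.sT E s e x| ≤ 2 := by
  obtain ⟨R1, h1⟩ := E.sv0 (Z.sv_H s) one_pos
  obtain ⟨R2, h2⟩ := E.far E.P.cpt 1
  refine ⟨max R1 R2, fun x a e k => ?_⟩
  have k1 := abs_le.1 (h1 x ((le_max_left _ _).trans_lt a) _ (E.v_mem x) e)
  rw [(cut Z s).H_tgt ((pos_far Z (h2 x x ((le_max_right _ _).trans_lt a) (E.nr_self x) _ (E.v_mem x))).trans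
    ((Z.mem_T _ _).1 k))] at k1
  rw [sT, abs_le]
  constructor <;> linarith [k1.1, k1.2, (cut Z s).nn e (E.v x), (cut Z s).le_one e (E.v x)]

/-- the label is deep -/
theorem nu_lab (hK : IsCompact K') (C : ℝ) : ∃ R : ℝ, ∀ x y, R < E.rr x → R < E.rr y → Nr G K' x y →
    C < E.nu s (Z.lab E x) y := by
  obtain ⟨R1, h1⟩ := nu_lb Z s (C + 2)
  obtain ⟨R2, h2⟩ := E.mu_near s hK C one_pos
  obtain ⟨R3, h3⟩ := E.far hK R1
  refine ⟨max R2 R3, fun x y a a' b => not_le.1 fun n => ?_⟩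
  have k1 := h1 _ (h3 x x ((le_max_right _ _).trans_lt a) b.left _ (E.v_mem x))
  have k2 := (h2 y x ((le_max_left _ _).trans_lt a') b.symm _ (E.v_mem x) {Z.lab E x}).1 n
  rw [Av.nu_eq] at n
  rw [Lv.nu_eq] at k1
  rw [lab] at n k2
  linarith

theorem nu_lab0 (C : ℝ) : ∃ R : ℝ, ∀ x, R < E.rr x → C < E.nu s (Z.lab E x) x :=
  (Z.nu_lab E s E.P.cpt C).imp fun _ h x a => h x x a a (E.nr_self x)

/-- far out, the clamped level of a positive edge is `mu (w.B e)` clipped at `1` -/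
theorem sT_mu {ε : ℝ} (hε : 0 < ε) : ∃ R : ℝ, ∀ x, R < E.rr x → ∀ e : Ed ι, e.k.2 = true →
    |max 0 (min 1 (Z.sT E s e x)) - min 1 (E.mu s (w.B e) x)| ≤ ε := by
  obtain ⟨R1, h1⟩ := Z.clamp E s (ε := ε / 3) (by positivity)
  obtain ⟨R2, h2⟩ := E.sv0 (Z.sv_h s) (ε := ε / 3) (by positivity)
  obtain ⟨R3, h3⟩ := E.mu_near0 s 1 (ε := ε / 3) (by positivity)
  obtain ⟨R4, h4⟩ := E.far E.P.cpt 1
  refine ⟨max (max R1 R2) (max R3 R4), fun x a e k => ?_⟩
  simp only [max_lt_iff] at a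
  have k1 := abs_le.1 (h1 x a.1.1 e)
  have k2 := abs_le.1 (h2 x a.1.2 _ (E.v_mem x) e)
  obtain ⟨k3, k4⟩ := h3 x a.2.1 _ (E.v_mem x) (w.B e)
  rw [h_true Z s k (h4 x x a.2.2 (E.nr_self x) _ (E.v_mem x)), ← hT] at k2
  have k5 : |min 1 (Lv.mu M s (w.B e) (E.v x)) - min 1 (E.mu s (w.B e) x)| ≤ ε / 3 := by
    rcases le_total 1 (Lv.mu M s (w.B e) (E.v x)) with p | p <;> rcases le_total 1 (E.mu s (w.B e) x) with q | q <;>
      simp only [min_eq_left, min_eq_right, p, q, abs_le] <;> constructor <;>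
      first | linarith | linarith [k3 q] | linarith [k4 p]
  rw [abs_le] at k5 ⊢
  constructor <;> linarith [k1.1, k1.2, k2.1, k2.2, k5.1, k5.2]

theorem hA1 {ε : ℝ} (hε : 0 < ε) : ∃ R : ℝ, ∀ (e : Ed ι) x b, e.k.2 = true → R < E.rr x → b ∈ w.B e →
    min 1 (E.nu s b x) ≤ max 0 (Z.sT E s e x) + ε := by
  refine (Z.sT_mu E s hε).imp fun R h e x b k a c => ?_
  have := min_le_min (le_refl 1) (E.mu_mono s (singleton_subset_iff.2 c) x)
  rw [Av.nu_eq]
  linarith [(abs_le.1 (h x a e k)).1, max_le_max (le_refl 0) (min_le_right 1 (Z.sT E s e x))]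

theorem hA2 {ε : ℝ} (hε : 0 < ε) : ∃ R : ℝ, ∀ (e : Ed ι) x, e.k.2 = true → R < E.rr x →
    ε < Z.sT E s e x → ∃ b ∈ w.B e, min 1 (Z.sT E s e x) < E.nu s b x + ε := by
  obtain ⟨R1, h1⟩ := Z.sT_mu E s (ε := min ε 1 / 2) (by positivity)
  obtain ⟨R2, h2⟩ := E.mu_le_nu s 1 (ε := min ε 1 / 4) (by positivity)
  refine ⟨max R1 R2, fun e x k a b => ?_⟩
  have k1 := (abs_le.1 (h1 x ((le_max_left _ _).trans_lt a) e k)).2
  have k2 := min_le_right 1 (E.mu s (w.B e) x)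
  have k3 := le_max_right 0 (min 1 (Z.sT E s e x))
  have k4 : min ε 1 ≤ min 1 (Z.sT E s e x) := le_min (min_le_right _ _) ((min_le_left _ _).trans b.le)
  have k5 : 0 < min ε 1 := by positivity
  obtain ⟨t, t1, t2⟩ := h2 x ((le_max_right _ _).trans_lt a) (w.B e) (by linarith)
  exact ⟨t, t1, by linarith [min_le_left ε 1]⟩

/-- the levels are coarsely Lipschitz -/
theorem sT_near (hK : IsCompact K') : ∃ C : ℕ, ∀ x y, Nr G K' x y → ∀ u ∈ E.Vs y, ∀ e,
    |Z.sT E s e x - (cut Z s).H e u| ≤ C := by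
  obtain ⟨d, h1⟩ := E.near hK
  exact (H_lip Z s d).imp fun C h x y a w b e => E.abs_av_sub fun u k => h u w (h1 x y a u k w b) e

variable [Finite K] [T2Space T]

/-- **(L4)** -/
theorem out_compact (R C : ℝ) (N : ℕ) (r : FreeGroup ι) :
    IsCompact {x | E.rr x ≤ R ∧ ∀ e, Out r N e → Z.sT E s e x ≤ C} := by
  obtain ⟨d, h1⟩ := E.rr_near E.P.cpt
  obtain ⟨C', h2⟩ := Z.sT_near E s E.P.cpt
  refine E.isCompact_of (out_fin Z s (⌈R⌉₊ + d) N (⌈C⌉₊ + C') r) ?_ fun x hx => ⟨?_, fun e a => ?_⟩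
  · simp only [ofPred_and, ofPred_forall]
    exact (isClosed_le E.rr.continuous continuous_const).inter (isClosed_iInter fun e =>
      isClosed_iInter fun _ => isClosed_le (Z.sT E s e).continuous continuous_const)
  · have := (abs_le.1 (h1 x x (E.nr_self x) _ (E.v_mem x))).1
    exact_mod_cast (show (rad M (E.v x) : ℝ) ≤ ⌈R⌉₊ + d by linarith [hx.1, Nat.le_ceil R])
  · have := (abs_le.1 (h2 x x (E.nr_self x) _ (E.v_mem x) e)).1
    push_cast
    linarith [hx.2 e a, Nat.le_ceil C]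

theorem win_compact (R a b : ℝ) (e : Ed ι) : IsCompact {x | E.rr x ≤ R ∧ a ≤ Z.sT E s e x ∧ Z.sT E s e x ≤ b} := by
  refine (Z.out_compact E s R (max b (-a)) 0 e.v).of_isClosed_subset ((isClosed_le E.rr.continuous
    continuous_const).inter ((isClosed_le continuous_const (Z.sT E s e).continuous).inter
      (isClosed_le (Z.sT E s e).continuous continuous_const))) fun x hx => ⟨hx.1, fun e' k => ?_⟩
  by_cases n : e' = e
  · exact n ▸ hx.2.2.trans (le_max_left _ _)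
  · have := Z.sT_bey E s (bey_same (d_eq_zero.1 k.1).symm n) x
    rw [sT_rev] at this
    linarith [hx.2.1, le_max_right b (-a)]

end TM

end Crest.Agent.N255.Lv
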