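import Crest.Agent.N255.Lv.Tr

/-!
# Row 255 (helper32): nested level functions from cut functions
-/

set_option autoImplicit false

noncomputable section

namespace Crest.Agent.N255.Lv

open FreeGroup Pt

variable {ι : Type} [DecidableEq ι] {P : Type}

/-- cut functions which are `1` when the position is strictly on the head side -/
structure Cut (ι P : Type) [DecidableEq ι] where
  pos : P → Nd ι
  h : Ed ι → P → ℝ
  nn : ∀ e p, 0 ≤ h e p
  h_rev : ∀ e p, h (rev e) p = 1 - h e p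
  one : ∀ e p, Hd e (pos p) → h e p = 1

namespace Cut

variable (C : Cut ι P) {e e' : Ed ι} {p q : P}

theorem le_one (e : Ed ι) (p : P) : C.h e p ≤ 1 := by
  have := C.nn (rev e) p
  rw [C.h_rev] at this
  linarith

theorem zero (h : Hd (rev e) (C.pos p)) : C.h e p = 0 := by
  have := C.one _ _ h
  rw [C.h_rev] at this
  linarith

/-- **exact nesting** -/
theorem nest (h : Bey e e') (k : C.h e' p ≠ 0) : C.h e p = 1 := C.one _ _ (h _ fun a => k (C.zero a))

theorem frac (h : C.h e p ≠ 0) (k : C.h e p ≠ 1) : C.pos p = tgt e :=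
  ((trich e _).resolve_left fun a => k (C.one _ _ a)).resolve_left fun a => h (C.zero a)

theorem fin (e : Ed ι) (p : P) : ({e' | Bey e e'} ∩ Function.support fun e' => C.h e' p).Finite :=
  (bey_finite e (C.pos p)).subset fun _ h => ⟨h.1, fun a => h.2 (C.zero a)⟩

/-- the sum over the edges beyond `e` -/
def B (e : Ed ι) (p : P) : ℝ := ∑ᶠ e' ∈ {e' | Bey e e'}, C.h e' p

/-- **the level function** -/
def H (e : Ed ι) (p : P) : ℝ := C.h e p + C.B e p - C.B (rev e) p

theorem B_eq {s : Finset (Ed ι)} (h : ∀ e' ∈ s, Bey e e') (k : ∀ e', Bey e e' → C.h e' p ≠ 0 → e' ∈ s) :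
    C.B e p = ∑ e' ∈ s, C.h e' p :=
  finsum_mem_eq_sum_of_inter_support_eq _ (Set.ext fun a =>
    ⟨fun b => ⟨k a b.1 b.2, b.2⟩, fun b => ⟨h a b.1, b.2⟩⟩)

theorem B_eq' (e : Ed ι) (p : P) : C.B e p = ∑ e' ∈ (C.fin e p).toFinset, C.h e' p :=
  C.B_eq (fun _ h => ((C.fin e p).mem_toFinset.1 h).1) fun _ h k => (C.fin e p).mem_toFinset.2 ⟨h, k⟩

theorem B_nn (e : Ed ι) (p : P) : 0 ≤ C.B e p := by
  rw [B_eq']; exact Finset.sum_nonneg fun _ _ => C.nn _ _

theorem B_zero (h : ¬Hd e (C.pos p)) : C.B e p = 0 := by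
  rw [C.B_eq (s := ∅) (by simp) fun e' a b => absurd (a _ fun c => b (C.zero c)) h, Finset.sum_empty]

theorem B_zero' (h : C.h e p ≠ 1) : C.B e p = 0 := C.B_zero fun a => h (C.one _ _ a)

theorem B_bey (h : Bey e e') (p : P) : C.h e' p + C.B e' p ≤ C.B e p := by
  classical
  have n : e' ∉ (C.fin e' p).toFinset := fun a => not_bey_self _ ((C.fin e' p).mem_toFinset.1 a).1
  rw [C.B_eq' e', ← Finset.sum_insert (f := fun e' => C.h e' p) n,
    C.B_eq (s := insert e' (C.fin e' p).toFinset ∪ (C.fin e p).toFinset)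
      (fun a b => ?_) fun a b c => Finset.mem_union_right _ ((C.fin e p).mem_toFinset.2 ⟨b, c⟩)]
  · exact Finset.sum_le_sum_of_subset_of_nonneg Finset.subset_union_left fun _ _ _ => C.nn _ _
  · simp only [Finset.mem_union, Finset.mem_insert, Set.Finite.mem_toFinset] at b
    rcases b with (rfl | b) | b
    exacts [h, h.trans b.1, b.1]

theorem H_rev (e : Ed ι) (p : P) : C.H (rev e) p = 1 - C.H e p := by
  rw [H, H, rev_rev, C.h_rev]; ring

/-- **nesting of the levels** -/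
theorem H_bey (h : Bey e e') (p : P) : C.H e' p + 1 ≤ C.H e p := by
  have a := C.B_bey h p
  have b := C.B_bey h.symm p
  rw [C.h_rev] at b
  rw [H, H]
  linarith

theorem h_le_H (h : ¬Hd (rev e) (C.pos p)) : C.h e p ≤ C.H e p := by
  rw [H, C.B_zero h]; linarith [C.B_nn e p]

theorem H_le_h (h : ¬Hd e (C.pos p)) : C.H e p ≤ C.h e p := by
  rw [H, C.B_zero h]; linarith [C.B_nn (rev e) p]

theorem H_nn (h : ¬Hd (rev e) (C.pos p)) : 0 ≤ C.H e p := (C.nn e p).trans (C.h_le_H h)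

theorem H_le_one (h : ¬Hd e (C.pos p)) : C.H e p ≤ 1 := (C.H_le_h h).trans (C.le_one e p)

theorem one_le_H (h : Hd e (C.pos p)) : 1 ≤ C.H e p := C.one _ _ h ▸ C.h_le_H h.not_rev

theorem H_np (h : Hd (rev e) (C.pos p)) : C.H e p ≤ 0 :=
  C.zero h ▸ C.H_le_h fun a => a.not_rev h

theorem H_tgt (h : C.pos p = tgt e) : C.H e p = C.h e p :=
  le_antisymm (C.H_le_h (h ▸ not_Hd_tgt e)) (C.h_le_H (h ▸ tgt_rev e ▸ not_Hd_tgt _))

/-- `h` is the clamped level -/
theorem clamp (e : Ed ι) (p : P) : max 0 (min 1 (C.H e p)) = C.h e p := by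
  rcases trich e (C.pos p) with a | a | a
  · rw [min_eq_left (C.one_le_H a), C.one _ _ a]; simp
  · rw [C.zero a]; exact max_eq_left ((min_le_right _ _).trans (C.H_np a))
  · rw [C.H_tgt a, min_eq_right (C.le_one e p), max_eq_right (C.nn e p)]

theorem H_eq_h (h : 0 ≤ C.H e p) (k : C.H e p ≤ 1) : C.H e p = C.h e p := by
  rw [← C.clamp, min_eq_right k, max_eq_right h]

theorem lt_H_iff {a : ℝ} (h : 0 ≤ a) (k : a < 1) : a < C.H e p ↔ a < C.h e p := by
  rw [← C.clamp, lt_max_iff, lt_min_iff]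
  exact ⟨fun b => .inr ⟨k, b⟩, fun b => b.elim (fun c => absurd c h.not_gt) And.right⟩

theorem H_lt_iff {a : ℝ} (h : 0 < a) (k : a ≤ 1) : C.H e p < a ↔ C.h e p < a := by
  rw [← C.clamp, max_lt_iff, min_lt_iff]
  exact ⟨fun b => ⟨h, .inr b⟩, fun b => b.2.elim (fun c => absurd c k.not_gt) id⟩

theorem not_Hd_of_lt (h : C.H e p < 1) : ¬Hd e (C.pos p) := fun a => (C.one_le_H a).not_gt h

/-- equivariance -/
theorem B_smul (g : FreeGroup ι) (k : ∀ e, C.h (g • e) q = C.h e p) (e : Ed ι) : C.B (g • e) q = C.B e p := by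
  symm
  exact finsum_mem_eq_of_bijOn (g • ·) ⟨fun _ a => (bey_smul g).2 a, (MulAction.injective g).injOn, fun a b => by
    obtain ⟨a, rfl⟩ := MulAction.surjective g a
    exact ⟨a, (bey_smul g).1 b, rfl⟩⟩ fun a _ => (k a).symm

theorem H_smul (g : FreeGroup ι) (k : ∀ e, C.h (g • e) q = C.h e p) (e : Ed ι) : C.H (g • e) q = C.H e p := by
  rw [H, H, rev_smul, C.B_smul g k, C.B_smul g k, k]

/-- the level is at least the depth -/
theorem depth {u : FreeGroup ι} (hu : En (C.pos p) u) (n : ℕ) : ∀ e, hs e u → d u (hd e) = n → n ≤ C.H e p := by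
  induction n with
  | zero => exact fun e h _ => by simpa using C.H_nn (not_Hd_rev hu h)
  | succ n ih =>
    intro e h k
    obtain ⟨j, hj⟩ := d_down k
    have a := ih ⟨hd e, j⟩ (show d u (hd e * x j) < d u (hd e) by omega) hj
    have b := C.H_bey (e := e) (e' := ⟨hd e, j⟩) (bey_next rfl fun c => by
      have c1 : hd e * x j = e.v := (congrArg hd c).trans (hd_rev e)
      rw [c1] at hj
      have := hs_iff.1 h
      omega) p
    push_cast
    linarith

theorem d_le {r : FreeGroup ι} {N c : ℕ} (h : ∀ e, Out r N e → C.H e p ≤ c) : d r (C.pos p).v ≤ N + c + 1 := by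
  by_contra a
  obtain ⟨e, h1, h2, h3⟩ := exists_out r (C.pos p).v (N := N) (by omega)
  have := Nat.cast_le.1 ((C.depth (en_v _) _ e h2 rfl).trans (h e h1))
  omega

theorem out_of_abs {c : ℕ} (h : C.H e p ≤ c) (k : -(c : ℝ) ≤ C.H e p) (e' : Ed ι) (a : Out e.v 0 e') :
    C.H e' p ≤ c := by
  by_cases b : e' = e
  · rwa [b]
  · have := C.H_bey (bey_same (d_eq_zero.1 a.1).symm b) p
    rw [C.H_rev] at this
    linarith

theorem d_le' {c : ℕ} (h : C.H e p ≤ c) (k : -(c : ℝ) ≤ C.H e p) : d e.v (C.pos p).v ≤ c + 1 := by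
  simpa using C.d_le (C.out_of_abs h k)

/-- the edges where `h` differs -/
theorem diff_finite (p q : P) : {e | C.h e p ≠ C.h e q}.Finite := by
  refine ((Sep_finite (C.pos p) (C.pos q)).union (((Sep_finite (C.pos p) (C.pos q)).preimage
    rev_injective.injOn).union (finite_tgt (C.pos p)))).subset fun e h => ?_
  rcases trich e (C.pos p) with a | a | a
  · exact .inl ⟨a, fun b => h (by rw [C.one _ _ a, C.one _ _ b])⟩
  · exact .inr (.inl ⟨a, fun b => h (by rw [C.zero a, C.zero b])⟩)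
  · exact .inr (.inr a.symm)

theorem B_sub {ε : ℝ} (hε : ∀ e, |C.h e p - C.h e q| ≤ ε) (e : Ed ι) :
    |C.B e p - C.B e q| ≤ {e | C.h e p ≠ C.h e q}.ncard * ε := by
  classical
  have e0 : 0 ≤ ε := (abs_nonneg _).trans (hε e)
  let s := (C.fin e p).toFinset ∪ (C.fin e q).toFinset
  have hs : ∀ e' ∈ s, Bey e e' := fun a b => by
    simp only [s, Finset.mem_union, Set.Finite.mem_toFinset] at b
    exact b.elim And.left And.left
  rw [C.B_eq hs fun a b c => Finset.mem_union_left _ ((C.fin e p).mem_toFinset.2 ⟨b, c⟩),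
    C.B_eq hs fun a b c => Finset.mem_union_right _ ((C.fin e q).mem_toFinset.2 ⟨b, c⟩),
    ← Finset.sum_sub_distrib, ← Finset.sum_filter_ne_zero]
  refine (Finset.abs_sum_le_sum_abs _ _).trans ((Finset.sum_le_card_nsmul _ _ ε fun a _ => hε a).trans ?_)
  rw [nsmul_eq_mul]
  refine mul_le_mul_of_nonneg_right (Nat.cast_le.2 ?_) e0
  rw [← Set.ncard_coe_finset]
  exact Set.ncard_le_ncard (fun a b => sub_ne_zero.1 (Finset.mem_filter.1 b).2) (C.diff_finite p q)

theorem H_sub {ε : ℝ} (hε : ∀ e, |C.h e p - C.h e q| ≤ ε) (e : Ed ι) :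
    |C.H e p - C.H e q| ≤ (1 + 2 * {e | C.h e p ≠ C.h e q}.ncard) * ε := by
  have a := abs_le.1 (C.B_sub hε e)
  have b := abs_le.1 (C.B_sub hε (rev e))
  have c := abs_le.1 (hε e)
  rw [H, H, abs_le]
  constructor <;> linarith [a.1, a.2, b.1, b.2, c.1, c.2]

theorem h_sub (e : Ed ι) (p q : P) : |C.h e p - C.h e q| ≤ 1 :=
  abs_le.2 ⟨by linarith [C.nn e p, C.le_one e q], by linarith [C.nn e q, C.le_one e p]⟩

/-- **slow variation passes from `h` to `H`** -/
theorem H_slow {ε : ℝ} (h1 : ε < 1) (hε : ∀ e, |C.h e p - C.h e q| ≤ ε) (e : Ed ι) :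
    |C.H e p - C.H e q| ≤ 9 * ε := by
  refine (C.H_sub hε e).trans (mul_le_mul_of_nonneg_right ?_ ((abs_nonneg _).trans (hε e)))
  have : {e | C.h e p ≠ C.h e q}.ncard ≤ 4 := by
    refine (Set.ncard_le_ncard (t := {e | tgt e = C.pos p} ∪ {e | tgt e = C.pos q}) (fun a b => ?_)
      ((finite_tgt _).union (finite_tgt _))).trans ((Set.ncard_union_le _ _).trans
        (add_le_add (ncard_tgt _) (ncard_tgt _)))
    by_contra c
    have c1 := mt (fun k : C.h a p ≠ 0 ∧ C.h a p ≠ 1 => (C.frac k.1 k.2).symm) fun k => c (.inl k)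
    have c2 := mt (fun k : C.h a q ≠ 0 ∧ C.h a q ≠ 1 => (C.frac k.1 k.2).symm) fun k => c (.inr k)
    have c3 := hε a
    rw [not_and_or, not_not, not_not] at c1 c2
    have b' : C.h a p ≠ C.h a q := b
    rcases c1 with c1 | c1 <;> rcases c2 with c2 | c2 <;> rw [c1, c2] at b' c3
    · exact b' rfl
    · norm_num at c3; linarith
    · norm_num at c3; linarith
    · exact b' rfl
  have : ({e | C.h e p ≠ C.h e q}.ncard : ℝ) ≤ 4 := by exact_mod_cast this
  linarith

end Cut

end Crest.Agent.N255.Lv
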